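import Vale.Agent.P038.Defs
import Mathlib

/-!
# P038 (H808): the strict inequality (G) in an arc-minimal counterexample
-/

namespace Vale.Agent.P038.H808

open Finset

universe u

variable {V : Type u} [Fintype V] [DecidableEq V]

/-- The closed out-neighbourhood of a set. -/
noncomputable def cl (D : OGraph V) (X : Finset V) : Finset V :=
  open Classical in univ.filter fun v => ∃ x ∈ X, v = x ∨ D.arc x v

theorem mem_cl {D : OGraph V} {X : Finset V} {v : V} :
    v ∈ cl D X ↔ ∃ x ∈ X, v = x ∨ D.arc x v := by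
  classical
  simp [cl]

theorem subset_cl (D : OGraph V) (X : Finset V) : X ⊆ cl D X := by
  intro x hx
  exact mem_cl.2 ⟨x, hx, Or.inl rfl⟩

theorem cl_mono (D : OGraph V) {X Y : Finset V} (h : X ⊆ Y) : cl D X ⊆ cl D Y := by
  intro v hv
  obtain ⟨x, hx, h1⟩ := mem_cl.1 hv
  exact mem_cl.2 ⟨x, h hx, h1⟩

theorem cl_union (D : OGraph V) (X Y : Finset V) : cl D (X ∪ Y) = cl D X ∪ cl D Y := by
  ext v
  rw [Finset.mem_union, mem_cl, mem_cl, mem_cl]
  constructor
  · rintro ⟨x, hx, h⟩
    rcases Finset.mem_union.1 hx with hx | hx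
    · exact Or.inl ⟨x, hx, h⟩
    · exact Or.inr ⟨x, hx, h⟩
  · rintro (⟨x, hx, h⟩ | ⟨x, hx, h⟩)
    · exact ⟨x, Finset.mem_union_left _ hx, h⟩
    · exact ⟨x, Finset.mem_union_right _ hx, h⟩

/-- `co X = |N[X]| - |X|`. -/
noncomputable def co (D : OGraph V) (X : Finset V) : ℤ := ((cl D X).card : ℤ) - (X.card : ℤ)

theorem co_subm (D : OGraph V) (Y Y' : Finset V) :
    co D (Y ∪ Y') + co D (Y ∩ Y') ≤ co D Y + co D Y' := by
  unfold co
  have h1 := Finset.card_union_add_card_inter Y Y'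
  have h2 := Finset.card_union_add_card_inter (cl D Y) (cl D Y')
  have h3 : (cl D (Y ∩ Y')).card ≤ (cl D Y ∩ cl D Y').card :=
    Finset.card_le_card (Finset.subset_inter (cl_mono D Finset.inter_subset_left)
      (cl_mono D Finset.inter_subset_right))
  rw [cl_union]
  omega

/-- Delete the arcs from `X` to `Z`. -/
def del (D : OGraph V) (X Z : Finset V) : OGraph V where
  arc u v := D.arc u v ∧ ¬ (u ∈ X ∧ v ∈ Z)
  loopless v h := D.loopless v h.1
  asymm u v h h' := D.asymm u v h.1 h'.1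

/-- The number of arcs. -/
noncomputable def arcs (D : OGraph V) : ℕ := ∑ v, (N1 D v).card

/-- An arc-minimal counterexample. -/
structure MinCE (D : OGraph V) : Prop where
  ce : ∀ v, (N2 D v).card < (N1 D v).card
  min : ∀ D' : OGraph V, arcs D' < arcs D → ∃ v, (N1 D' v).card ≤ (N2 D' v).card

/-- `d(T) = |N[T] \ X| - 2 |T|`. -/
noncomputable def dd (D : OGraph V) (X T : Finset V) : ℤ :=
  ((cl D T \ X).card : ℤ) - 2 * (T.card : ℤ)

theorem del_row_in (D : OGraph V) (X T : Finset V) {y : V} (hy : y ∈ X) :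
    ((N1 D y).card : ℤ) - (N2 D y).card +
        (dd D X (T ∪ (N1 D y ∩ ((cl D X \ X) \ T))) - dd D X T) ≤
      ((N1 (del D X ((cl D X \ X) \ T)) y).card : ℤ) -
        (N2 (del D X ((cl D X \ X) \ T)) y).card := by
  set L := cl D X \ X with hL
  set Z := L \ T with hZ
  set D' := del D X Z with hD'
  set Dy := N1 D y ∩ Z with hDy
  set Ey := cl D Dy \ (cl D T ∪ X) with hEy
  have hN1 : N1 D' y = N1 D y \ Dy := by
    ext z
    rw [mem_N1, Finset.mem_sdiff, hDy, Finset.mem_inter, mem_N1]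
    constructor
    · rintro ⟨h1, h2⟩
      exact ⟨h1, fun h3 => h2 ⟨hy, h3.2⟩⟩
    · rintro ⟨h1, h2⟩
      exact ⟨h1, fun h3 => h2 ⟨h1, h3.2⟩⟩
  have hEsub : Ey ⊆ N2 D y ∪ Dy := by
    intro z hz
    obtain ⟨hz1, hz2⟩ := Finset.mem_sdiff.1 hz
    have hzX : z ∉ X := fun h3 => hz2 (Finset.mem_union_right _ h3)
    have hzT : z ∉ cl D T := fun h3 => hz2 (Finset.mem_union_left _ h3)
    obtain ⟨c, hc, hcz⟩ := mem_cl.1 hz1
    rcases hcz with rfl | hcz
    · exact Finset.mem_union_right _ hc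
    · have hyc : D.arc y c := mem_N1.1 (Finset.mem_inter.1 hc).1
      by_cases hyz : D.arc y z
      · refine Finset.mem_union_right _ (Finset.mem_inter.2 ⟨mem_N1.2 hyz, ?_⟩)
        refine Finset.mem_sdiff.2 ⟨?_, ?_⟩
        · exact Finset.mem_sdiff.2 ⟨mem_cl.2 ⟨y, hy, Or.inr hyz⟩, hzX⟩
        · intro h3
          exact hzT (subset_cl D T h3)
      · refine Finset.mem_union_left _ (mem_N2.2 ⟨?_, hyz, c, hyc, hcz⟩)
        rintro rfl
        exact hzX hy
  have hN2 : N2 D' y ⊆ (N2 D y ∪ Dy) \ Ey := by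
    intro z hz
    rw [mem_N2] at hz
    obtain ⟨hzy, hnz, c, hyc, hcz⟩ := hz
    refine Finset.mem_sdiff.2 ⟨?_, ?_⟩
    · by_cases hyz : D.arc y z
      · refine Finset.mem_union_right _ (Finset.mem_inter.2 ⟨mem_N1.2 hyz, ?_⟩)
        by_contra hzZ
        exact hnz ⟨hyz, fun h3 => hzZ h3.2⟩
      · exact Finset.mem_union_left _ (mem_N2.2 ⟨hzy, hyz, c, hyc.1, hcz.1⟩)
    · intro hzE
      obtain ⟨_, hz2⟩ := Finset.mem_sdiff.1 hzE
      have hzX : z ∉ X := fun h3 => hz2 (Finset.mem_union_right _ h3)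
      have hzT : z ∉ cl D T := fun h3 => hz2 (Finset.mem_union_left _ h3)
      by_cases hcX : c ∈ X
      · have hzL : z ∈ L := Finset.mem_sdiff.2 ⟨mem_cl.2 ⟨c, hcX, Or.inr hcz.1⟩, hzX⟩
        have hzZ : z ∈ Z := Finset.mem_sdiff.2 ⟨hzL, fun h3 => hzT (subset_cl D T h3)⟩
        exact hcz.2 ⟨hcX, hzZ⟩
      · have hcL : c ∈ L := Finset.mem_sdiff.2 ⟨mem_cl.2 ⟨y, hy, Or.inr hyc.1⟩, hcX⟩
        have hcT : c ∈ T := by
          by_contra hcT
          exact hyc.2 ⟨hy, Finset.mem_sdiff.2 ⟨hcL, hcT⟩⟩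
        exact hzT (mem_cl.2 ⟨c, hcT, Or.inr hcz.1⟩)
  have h1 := Finset.card_le_card hN2
  rw [Finset.card_sdiff_of_subset hEsub] at h1
  have h1' := Finset.card_le_card hEsub
  have h1'' : (N2 D y ∪ Dy).card ≤ (N2 D y).card + Dy.card := Finset.card_union_le _ _
  have h2 : (N1 D' y).card = (N1 D y).card - Dy.card := by
    rw [hN1, Finset.card_sdiff_of_subset Finset.inter_subset_left]
  have h2' : Dy.card ≤ (N1 D y).card := Finset.card_le_card Finset.inter_subset_left
  have hDT : Disjoint T Dy := by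
    rw [Finset.disjoint_left]
    intro z hz hz'
    exact (Finset.mem_sdiff.1 (Finset.mem_inter.1 hz').2).2 hz
  have e1 : cl D (T ∪ Dy) \ X = (cl D T \ X) ∪ (cl D Dy \ (cl D T ∪ X)) := by
    rw [cl_union]
    ext z
    simp only [Finset.mem_sdiff, Finset.mem_union]
    tauto
  have e2 : Disjoint (cl D T \ X) (cl D Dy \ (cl D T ∪ X)) := by
    rw [Finset.disjoint_left]
    intro z hz hz'
    exact (Finset.mem_sdiff.1 hz').2 (Finset.mem_union_left _ (Finset.mem_sdiff.1 hz).1)
  have e3 : (cl D (T ∪ Dy) \ X).card = (cl D T \ X).card + Ey.card := by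
    rw [e1, Finset.card_union_of_disjoint e2]
  have e4 : (T ∪ Dy).card = T.card + Dy.card := Finset.card_union_of_disjoint hDT
  unfold dd
  rw [e3, e4]
  omega

theorem del_row_out (D : OGraph V) (X Z : Finset V) {y : V} (hy : y ∉ X) :
    ((N1 D y).card : ℤ) - (N2 D y).card ≤
      ((N1 (del D X Z) y).card : ℤ) - (N2 (del D X Z) y).card := by
  have h1 : N1 (del D X Z) y = N1 D y := by
    ext z
    rw [mem_N1, mem_N1]
    exact ⟨fun h3 => h3.1, fun h3 => ⟨h3, fun h4 => hy h4.1⟩⟩
  have h2 : N2 (del D X Z) y ⊆ N2 D y := by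
    intro z hz
    rw [mem_N2] at hz ⊢
    obtain ⟨hzv, hnz, c, hvc, hcz⟩ := hz
    exact ⟨hzv, fun h3 => hnz ⟨h3, fun h4 => hy h4.1⟩, c, hvc.1, hcz.1⟩
  have h3 := Finset.card_le_card h2
  rw [h1]
  omega

theorem MinCE.strict {D : OGraph V} (hD : MinCE D) (X : Finset V) (hX : cl D X ≠ X) :
    co D (cl D X) < co D X := by
  set L := cl D X \ X with hL
  have hLne : L.Nonempty := by
    rw [Finset.sdiff_nonempty]
    intro h
    exact hX (Finset.Subset.antisymm h (subset_cl D X))
  have hdL : dd D X L < 0 := by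
    by_contra hcon
    push Not at hcon
    have h0 : dd D X ∅ = 0 := by
      have : cl D ∅ = ∅ := by
        ext v
        simp [mem_cl]
      unfold dd
      rw [this]
      simp
    obtain ⟨T, hT, hmin⟩ := Finset.exists_min_image L.ssubsets (dd D X)
      ⟨∅, Finset.mem_ssubsets.2 (Finset.empty_ssubset.2 hLne)⟩
    rw [Finset.mem_ssubsets] at hT
    have hmin' : ∀ S ⊆ L, dd D X T ≤ dd D X S := by
      intro S hS
      by_cases h : S = L
      · have h1 := hmin ∅ (Finset.mem_ssubsets.2 (Finset.empty_ssubset.2 hLne))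
        rw [h]
        linarith
      · exact hmin S (Finset.mem_ssubsets.2 (Finset.ssubset_iff_subset_ne.2 ⟨hS, h⟩))
    have hrow : ∀ y, (N2 (del D X (L \ T)) y).card < (N1 (del D X (L \ T)) y).card := by
      intro y
      have h1 := hD.ce y
      by_cases hy : y ∈ X
      · have h2 := del_row_in D X T hy
        have h3 := hmin' (T ∪ (N1 D y ∩ (L \ T))) (Finset.union_subset hT.1
          (Finset.inter_subset_right.trans Finset.sdiff_subset))
        rw [← hL] at h2
        omega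
      · have h2 := del_row_out D X (L \ T) hy
        omega
    have harcs : arcs (del D X (L \ T)) < arcs D := by
      obtain ⟨l, hl, hlT⟩ := Finset.exists_of_ssubset hT
      obtain ⟨x, hx, hxl⟩ := mem_cl.1 (Finset.mem_sdiff.1 hl).1
      have hxl' : D.arc x l := by
        rcases hxl with rfl | h
        · exact absurd hx (Finset.mem_sdiff.1 hl).2
        · exact h
      unfold arcs
      refine Finset.sum_lt_sum (fun v _ => ?_) ⟨x, Finset.mem_univ x, ?_⟩
      · refine Finset.card_le_card fun z hz => ?_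
        exact mem_N1.2 (mem_N1.1 hz).1
      · refine Finset.card_lt_card (Finset.ssubset_iff_of_subset ?_ |>.2 ⟨l, mem_N1.2 hxl', ?_⟩)
        · intro z hz
          exact mem_N1.2 (mem_N1.1 hz).1
        · intro h
          exact (mem_N1.1 h).2 ⟨hx, Finset.mem_sdiff.2 ⟨hl, hlT⟩⟩
    obtain ⟨v, hv⟩ := hD.min _ harcs
    exact absurd (hrow v) (not_lt.2 hv)
  -- translate
  have e1 : cl D X = X ∪ L := by
    rw [hL, Finset.union_sdiff_of_subset (subset_cl D X)]
  have e2 : cl D (cl D X) = cl D X ∪ (cl D L \ X) := by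
    have : cl D (cl D X) = cl D X ∪ cl D L := by
      conv_lhs => rw [e1]
      rw [cl_union]
    rw [this]
    ext z
    simp only [Finset.mem_union, Finset.mem_sdiff]
    constructor
    · rintro (h | h)
      · exact Or.inl h
      · by_cases hz : z ∈ X
        · exact Or.inl (subset_cl D X hz)
        · exact Or.inr ⟨h, hz⟩
    · rintro (h | h)
      · exact Or.inl h
      · exact Or.inr h.1
  have e3 : L ⊆ cl D L \ X := by
    intro z hz
    exact Finset.mem_sdiff.2 ⟨subset_cl D L hz, (Finset.mem_sdiff.1 hz).2⟩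
  have e4 : (cl D (cl D X)).card = X.card + (cl D L \ X).card := by
    have : cl D (cl D X) = X ∪ (cl D L \ X) := by
      rw [e2, e1, Finset.union_assoc, Finset.union_eq_right.2 e3]
    rw [this, Finset.card_union_of_disjoint Finset.disjoint_sdiff]
  have e5 : (cl D X).card = X.card + L.card := by
    rw [e1, Finset.card_union_of_disjoint Finset.disjoint_sdiff]
  unfold co
  unfold dd at hdL
  rw [e4]
  omega

end Vale.Agent.P038.H808
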