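import Mathlib

/-!
# P038 (H808): the gap inequality

For a submodular `f`, row and column optimality give
`∑ (f (U a) - f (B a)) ≤ ∑ (f (M z) - f (m z))`, where `M`, `m` are the meets over in-neighbours.
-/

namespace Vale.Agent.P038.H808

open Finset

universe u

variable {V : Type u} [Fintype V] [DecidableEq V]

/-- `k f P Q W = min { f Y : P ∪ (W ∩ Q) ⊆ Y ⊆ Q }`. -/
noncomputable def kk (f : Finset V → ℤ) (P Q W : Finset V) : ℤ :=
  sInf (f '' {Y | P ∪ (W ∩ Q) ⊆ Y ∧ Y ⊆ Q})

theorem kk_le (f : Finset V → ℤ) {P Q W Y : Finset V} (h1 : P ∪ (W ∩ Q) ⊆ Y) (h2 : Y ⊆ Q) :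
    kk f P Q W ≤ f Y :=
  csInf_le (Set.toFinite _).bddBelow ⟨Y, ⟨h1, h2⟩, rfl⟩

theorem kk_mem (f : Finset V → ℤ) {P Q : Finset V} (W : Finset V) (h : P ⊆ Q) :
    ∃ Y, P ∪ (W ∩ Q) ⊆ Y ∧ Y ⊆ Q ∧ f Y = kk f P Q W := by
  have h1 : (f '' {Y | P ∪ (W ∩ Q) ⊆ Y ∧ Y ⊆ Q}).Nonempty :=
    ⟨f Q, Q, ⟨Finset.union_subset h Finset.inter_subset_right, subset_rfl⟩, rfl⟩
  obtain ⟨Y, ⟨h2, h3⟩, h4⟩ := Int.csInf_mem h1 (Set.toFinite _).bddBelow
  exact ⟨Y, h2, h3, h4⟩

theorem kk_mono (f : Finset V → ℤ) {P Q W W' : Finset V} (h : P ⊆ Q) (hW : W ⊆ W') :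
    kk f P Q W ≤ kk f P Q W' := by
  obtain ⟨Y, h1, h2, h3⟩ := kk_mem f W' h
  rw [← h3]
  exact kk_le f ((Finset.union_subset_union subset_rfl
    (Finset.inter_subset_inter hW subset_rfl)).trans h1) h2

/-- Telescoping along an enumeration of `V`. -/
theorem telescope (F : Finset V → ℤ) :
    ∑ b, (F (insert b (univ.filter fun v => Fintype.equivFin V v < Fintype.equivFin V b)) -
      F (univ.filter fun v => Fintype.equivFin V v < Fintype.equivFin V b)) = F univ - F ∅ := by
  set e := Fintype.equivFin V with he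
  let G : ℕ → ℤ := fun i => F (univ.filter fun v => (e v : ℕ) < i)
  have h1 : ∀ b, F (insert b (univ.filter fun v => e v < e b)) -
      F (univ.filter fun v => e v < e b) = G ((e b : ℕ) + 1) - G (e b : ℕ) := by
    intro b
    have h2 : insert b (univ.filter fun v => e v < e b) =
        univ.filter fun v => (e v : ℕ) < (e b : ℕ) + 1 := by
      ext v
      simp only [Finset.mem_insert, Finset.mem_filter, Finset.mem_univ, true_and, Fin.lt_def]
      constructor
      · rintro (rfl | h)
        · omega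
        · omega
      · intro h
        rcases Nat.lt_succ_iff_lt_or_eq.1 h with h | h
        · exact Or.inr h
        · exact Or.inl (e.injective (Fin.ext h))
    have h3 : (univ.filter fun v => e v < e b) = univ.filter fun v => (e v : ℕ) < (e b : ℕ) := by
      ext v
      simp only [Finset.mem_filter, Finset.mem_univ, true_and]
      exact Fin.lt_def
    simp only [G]
    rw [h2, h3]
  rw [Finset.sum_congr rfl fun b _ => h1 b]
  rw [Equiv.sum_comp e (fun i : Fin (Fintype.card V) => G ((i : ℕ) + 1) - G (i : ℕ))]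
  rw [Fin.sum_univ_eq_sum_range (fun i => G (i + 1) - G i)]
  rw [Finset.sum_range_sub]
  have h4 : (univ.filter fun v => (e v : ℕ) < Fintype.card V) = (univ : Finset V) := by
    ext v
    simp
  have h5 : (univ.filter fun v => (e v : ℕ) < 0) = (∅ : Finset V) := by
    ext v
    simp
  simp only [G]
  rw [h4, h5]

/-- The meet of the rows over the in-neighbours. -/
noncomputable def meet (E : V → V → Prop) (U : V → Finset V) (z : V) : Finset V :=
  open Classical in univ.filter fun y => ∀ a, E a z → y ∈ U a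

theorem mem_meet {E : V → V → Prop} {U : V → Finset V} {z y : V} :
    y ∈ meet E U z ↔ ∀ a, E a z → y ∈ U a := by
  classical
  simp [meet]

open Classical in
/-- Weighted Hall. -/
theorem hall_sum (E : V → V → Prop) (S R : Finset V) (al ga : V → ℤ)
    (hga : ∀ z ∈ R, 0 ≤ ga z) (hle : ∀ a ∈ S, ∀ z ∈ R, E a z → al a ≤ ga z)
    (hH : ∀ T ⊆ S, T.card ≤ (R.filter fun z => ∃ a ∈ T, E a z).card) :
    ∑ a ∈ S, al a ≤ ∑ z ∈ R, ga z := by
  classical
  have h1 : ∃ g : S → V, Function.Injective g ∧ ∀ x : S, g x ∈ R.filter fun z => E x z := by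
    refine (Finset.all_card_le_biUnion_card_iff_exists_injective
      (fun x : S => R.filter fun z => E x z)).1 ?_
    intro s
    have h2 := hH (s.map (Function.Embedding.subtype _)) (by
      intro x hx
      obtain ⟨y, _, rfl⟩ := Finset.mem_map.1 hx
      exact y.2)
    rw [Finset.card_map] at h2
    refine h2.trans (Finset.card_le_card ?_)
    intro z hz
    obtain ⟨hzR, a, ha, haz⟩ := Finset.mem_filter.1 hz
    obtain ⟨y, hy, rfl⟩ := Finset.mem_map.1 ha
    exact Finset.mem_biUnion.2 ⟨y, hy, Finset.mem_filter.2 ⟨hzR, haz⟩⟩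
  obtain ⟨g, hg, hgm⟩ := h1
  have h3 : ∑ a ∈ S, al a = ∑ x : S, al x := by
    rw [← Finset.sum_coe_sort S]
  rw [h3]
  calc ∑ x : S, al x ≤ ∑ x : S, ga (g x) := by
        refine Finset.sum_le_sum fun x _ => ?_
        obtain ⟨h4, h5⟩ := Finset.mem_filter.1 (hgm x)
        exact hle x x.2 (g x) h4 h5
    _ = ∑ z ∈ univ.image g, ga z := by
        rw [Finset.sum_image]
        intro x _ y _ h
        exact hg h
    _ ≤ ∑ z ∈ R, ga z := by
        refine Finset.sum_le_sum_of_subset_of_nonneg ?_ fun z hz _ => hga z hz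
        intro z hz
        obtain ⟨x, _, rfl⟩ := Finset.mem_image.1 hz
        exact (Finset.mem_filter.1 (hgm x)).1

open Classical in
/-- The gap inequality. -/
theorem gap (f : Finset V → ℤ) (hf : ∀ Y Y', f (Y ∪ Y') + f (Y ∩ Y') ≤ f Y + f Y')
    (E : V → V → Prop) (B U : V → Finset V) (hBU : ∀ a, B a ⊆ U a)
    (hR : ∀ a Y, B a ⊆ Y → Y ⊆ U a → f (B a) ≤ f Y)
    (hC : ∀ b (T : Finset V), (∀ a ∈ T, b ∈ U a ∧ b ∉ B a) →
      T.card ≤ ((univ.filter fun z => b ∈ meet E U z).filter fun z => ∃ a ∈ T, E a z).card) :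
    ∑ a, (f (U a) - f (B a)) ≤ ∑ z, (f (meet E U z) - f (meet E B z)) := by
  classical
  have hmM : ∀ z, meet E B z ⊆ meet E U z := by
    intro z y hy
    exact mem_meet.2 fun a ha => hBU a (mem_meet.1 hy a ha)
  have hMU : ∀ a z, E a z → meet E U z ⊆ U a := by
    intro a z h y hy
    exact mem_meet.1 hy a h
  have hmB : ∀ a z, E a z → meet E B z ⊆ B a := by
    intro a z h y hy
    exact mem_meet.1 hy a h
  set W : V → Finset V := fun b =>
    univ.filter fun v => Fintype.equivFin V v < Fintype.equivFin V b with hW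
  set al : V → V → ℤ := fun a b =>
    kk f (B a) (U a) (insert b (W b)) - kk f (B a) (U a) (W b) with hal
  set ga : V → V → ℤ := fun z b =>
    kk f (meet E B z) (meet E U z) (insert b (W b)) -
      kk f (meet E B z) (meet E U z) (W b) with hga
  -- endpoints
  have hk0 : ∀ P Q : Finset V, P ⊆ Q → (∀ Y, P ⊆ Y → Y ⊆ Q → f P ≤ f Y) →
      kk f P Q ∅ = f P := by
    intro P Q hPQ h
    obtain ⟨Y, h1, h2, h3⟩ := kk_mem f ∅ hPQ
    refine le_antisymm (kk_le f ?_ hPQ) ?_
    · simp
    · rw [← h3]
      refine h Y ?_ h2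
      exact (Finset.subset_union_left).trans h1
  have hk1 : ∀ P Q : Finset V, P ⊆ Q → kk f P Q univ = f Q := by
    intro P Q hPQ
    obtain ⟨Y, h1, h2, h3⟩ := kk_mem f univ hPQ
    have h4 : Y = Q := by
      refine le_antisymm h2 ?_
      have h5 : P ∪ (univ ∩ Q) = Q := by
        rw [Finset.univ_inter]
        exact Finset.union_eq_right.2 hPQ
      rw [h5] at h1
      exact h1
    rw [← h3, h4]
  have hm0 : ∀ z, ∀ Y, meet E B z ⊆ Y → Y ⊆ meet E U z → f (meet E B z) ≤ f Y := by
    intro z Y h1 h2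
    have key : ∀ F : Finset V, (∀ a ∈ F, E a z) →
        f (Y.filter fun y => ∀ a ∈ F, y ∈ B a) ≤ f Y := by
      intro F
      induction F using Finset.induction_on with
      | empty =>
        intro _
        simp
      | insert a F ha ih =>
        intro hF
        have h3 := ih fun a' ha' => hF a' (Finset.mem_insert_of_mem ha')
        set Y' := Y.filter fun y => ∀ a ∈ F, y ∈ B a with hY'
        have h4 : (Y.filter fun y => ∀ a' ∈ insert a F, y ∈ B a') = Y' ∩ B a := by
          ext y
          simp only [hY', Finset.mem_filter, Finset.mem_inter, Finset.mem_insert,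
            forall_eq_or_imp]
          tauto
        rw [h4]
        have h5 := hf Y' (B a)
        have h6 : f (B a) ≤ f (Y' ∪ B a) := by
          refine hR a _ Finset.subset_union_right ?_
          refine Finset.union_subset ?_ (hBU a)
          exact (Finset.filter_subset _ _).trans
            (h2.trans (hMU a z (hF a (Finset.mem_insert_self a F))))
        linarith
    have h7 := key (univ.filter fun a => E a z) (by simp)
    have h8 : (Y.filter fun y => ∀ a ∈ univ.filter (fun a => E a z), y ∈ B a) = meet E B z := by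
      ext y
      simp only [Finset.mem_filter, Finset.mem_univ, true_and, mem_meet]
      exact ⟨fun h => h.2, fun h => ⟨h1 (mem_meet.2 h), h⟩⟩
    rw [h8] at h7
    exact h7
  -- comparison
  have hcomp : ∀ a z b, E a z → b ∈ meet E U z → al a b ≤ ga z b := by
    intro a z b haz hb
    obtain ⟨Y, h1, h2, h3⟩ := kk_mem f (insert b (W b)) (hmM z)
    obtain ⟨Y', h1', h2', h3'⟩ := kk_mem f (W b) (hBU a)
    have h4 : kk f (B a) (U a) (insert b (W b)) ≤ f (Y ∪ Y') := by
      refine kk_le f ?_ (Finset.union_subset (h2.trans (hMU a z haz)) h2')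
      intro x hx
      rcases Finset.mem_union.1 hx with hx | hx
      · exact Finset.mem_union_right _ (h1' (Finset.mem_union_left _ hx))
      · obtain ⟨hx1, hx2⟩ := Finset.mem_inter.1 hx
        rcases Finset.mem_insert.1 hx1 with rfl | hx1
        · refine Finset.mem_union_left _ (h1 (Finset.mem_union_right _
            (Finset.mem_inter.2 ⟨Finset.mem_insert_self _ _, hb⟩)))
        · exact Finset.mem_union_right _ (h1' (Finset.mem_union_right _
            (Finset.mem_inter.2 ⟨hx1, hx2⟩)))
    have h5 : kk f (meet E B z) (meet E U z) (W b) ≤ f (Y ∩ Y') := by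
      refine kk_le f ?_ (Finset.inter_subset_left.trans h2)
      intro x hx
      rcases Finset.mem_union.1 hx with hx | hx
      · refine Finset.mem_inter.2 ⟨h1 (Finset.mem_union_left _ hx), ?_⟩
        exact h1' (Finset.mem_union_left _ (hmB a z haz hx))
      · obtain ⟨hx1, hx2⟩ := Finset.mem_inter.1 hx
        refine Finset.mem_inter.2 ⟨h1 (Finset.mem_union_right _
          (Finset.mem_inter.2 ⟨Finset.mem_insert_of_mem hx1, hx2⟩)), ?_⟩
        exact h1' (Finset.mem_union_right _
          (Finset.mem_inter.2 ⟨hx1, hMU a z haz hx2⟩))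
    have h6 := hf Y Y'
    simp only [hal, hga]
    linarith
  have hga0 : ∀ z b, 0 ≤ ga z b := by
    intro z b
    simp only [hga]
    have := kk_mono f (hmM z) (Finset.subset_insert b (W b))
    linarith
  have hal0 : ∀ a b, ¬ (b ∈ U a ∧ b ∉ B a) → al a b = 0 := by
    intro a b h
    have h1 : B a ∪ (insert b (W b) ∩ U a) = B a ∪ (W b ∩ U a) := by
      ext x
      simp only [Finset.mem_union, Finset.mem_inter, Finset.mem_insert]
      constructor
      · rintro (hx | ⟨rfl | hx, hx2⟩)
        · exact Or.inl hx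
        · left
          by_contra h3
          exact h ⟨hx2, h3⟩
        · exact Or.inr ⟨hx, hx2⟩
      · rintro (hx | ⟨hx, hx2⟩)
        · exact Or.inl hx
        · exact Or.inr ⟨Or.inr hx, hx2⟩
    simp only [hal, kk]
    rw [h1, sub_self]
  have hcol : ∀ b, ∑ a, al a b ≤ ∑ z, ga z b := by
    intro b
    have h1 : ∑ a, al a b = ∑ a ∈ univ.filter (fun a => b ∈ U a ∧ b ∉ B a), al a b := by
      rw [Finset.sum_filter]
      refine Finset.sum_congr rfl fun a _ => ?_
      split_ifs with h
      · rfl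
      · exact hal0 a b h
    have h2 : ∑ z ∈ univ.filter (fun z => b ∈ meet E U z), ga z b ≤ ∑ z, ga z b := by
      refine Finset.sum_le_sum_of_subset_of_nonneg (Finset.filter_subset _ _) fun z _ _ => ?_
      exact hga0 z b
    rw [h1]
    refine le_trans ?_ h2
    refine hall_sum E _ _ (fun a => al a b) (fun z => ga z b) (fun z _ => hga0 z b) ?_ ?_
    · intro a _ z hz haz
      exact hcomp a z b haz (Finset.mem_filter.1 hz).2
    · intro T hT
      exact hC b T fun a ha => (Finset.mem_filter.1 (hT ha)).2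
  have hrow : ∀ a, ∑ b, al a b = f (U a) - f (B a) := by
    intro a
    rw [← hk1 _ _ (hBU a), ← hk0 _ _ (hBU a) (hR a)]
    exact telescope fun W => kk f (B a) (U a) W
  have hrow' : ∀ z, ∑ b, ga z b = f (meet E U z) - f (meet E B z) := by
    intro z
    rw [← hk1 _ _ (hmM z), ← hk0 _ _ (hmM z) (hm0 z)]
    exact telescope fun W => kk f (meet E B z) (meet E U z) W
  calc ∑ a, (f (U a) - f (B a)) = ∑ a, ∑ b, al a b :=
        Finset.sum_congr rfl fun a _ => (hrow a).symm
    _ = ∑ b, ∑ a, al a b := Finset.sum_comm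
    _ ≤ ∑ b, ∑ z, ga z b := Finset.sum_le_sum fun b _ => hcol b
    _ = ∑ z, ∑ b, ga z b := Finset.sum_comm
    _ = ∑ z, (f (meet E U z) - f (meet E B z)) := Finset.sum_congr rfl fun z _ => hrow' z

end Vale.Agent.P038.H808
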