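import Vale.Agent.P038.H808.Gap
import Vale.Agent.P038.H808.G

/-!
# P038 (H808): Seymour's second neighbourhood conjecture
-/

namespace Vale.Agent.P038.H808

open Finset

universe u

variable {V : Type u} [Fintype V] [DecidableEq V]

/-- Inner pairs. -/
def Inn (D : OGraph V) (X Y : V → Finset V) : Prop :=
  (∀ a, a ∈ X a) ∧ (∀ a, a ∈ Y a) ∧ ∀ a b, b ∈ cl D (X a) → a ∈ cl D (Y b) → a = b

/-- Outer pairs. -/
def Out (D : OGraph V) (B U : V → Finset V) : Prop :=
  (∀ a, cl D {a} ⊆ B a) ∧ (∀ a, B a ⊆ U a) ∧ ∀ a y, D.arc y a → y ∉ U a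

/-- `z ∈ N[a]`. -/
def EE (D : OGraph V) (a z : V) : Prop := z = a ∨ D.arc a z

/-- The cost of an outer pair. -/
noncomputable def oc (D : OGraph V) (B U : V → Finset V) : ℤ :=
  ∑ a, co D (B a) + ∑ a, (((U a).card : ℤ) - ((meet (EE D) U a).card : ℤ))

/-- Double counting. -/
theorem dc (P : V → V → Prop) [DecidableRel P] :
    ∑ x, (univ.filter fun a => P a x).card = ∑ a, (univ.filter fun x => P a x).card := by
  simp only [Finset.card_filter]
  exact Finset.sum_comm

theorem meet_sub (D : OGraph V) (U : V → Finset V) (a : V) : meet (EE D) U a ⊆ U a := by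
  intro y hy
  exact mem_meet.1 hy a (Or.inl rfl)

theorem inner_to_outer (D : OGraph V) (X Y : V → Finset V) (h : Inn D X Y) :
    ∃ B U, Out D B U ∧ oc D B U ≤ ∑ a, co D (cl D (X a)) + ∑ a, co D (cl D (Y a)) := by
  classical
  obtain ⟨hX, hY, hXY⟩ := h
  set U : V → Finset V := fun a => univ.filter fun y => y = a ∨ a ∉ cl D (Y y) with hU
  have mU : ∀ a y, y ∈ U a ↔ (y = a ∨ a ∉ cl D (Y y)) := by
    intro a y
    simp [hU]
  have hBU : ∀ a, cl D (X a) ⊆ U a := by
    intro a y hy
    rw [mU]
    by_cases h1 : a ∈ cl D (Y y)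
    · exact Or.inl (hXY a y hy h1).symm
    · exact Or.inr h1
  refine ⟨fun a => cl D (X a), U, ⟨?_, hBU, ?_⟩, ?_⟩
  · intro a
    exact cl_mono D (Finset.singleton_subset_iff.2 (hX a))
  · intro a y hya hyU
    rcases (mU a y).1 hyU with rfl | h1
    · exact D.loopless _ hya
    · exact h1 (mem_cl.2 ⟨y, hY y, Or.inr hya⟩)
  · unfold oc
    have h1 : ∑ a, (((U a).card : ℤ) - ((meet (EE D) U a).card : ℤ)) ≤
        ∑ y, co D (cl D (Y y)) := by
      have h2 : ∀ a, (((U a).card : ℤ) - ((meet (EE D) U a).card : ℤ)) =
          (((univ.filter fun y => y ∈ U a ∧ y ∉ meet (EE D) U a).card : ℕ) : ℤ) := by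
        intro a
        have h3 : (univ.filter fun y => y ∈ U a ∧ y ∉ meet (EE D) U a) =
            U a \ meet (EE D) U a := by
          ext y
          simp
        rw [h3, Finset.card_sdiff_of_subset (meet_sub D U a)]
        have h4 := Finset.card_le_card (meet_sub D U a)
        omega
      have h5 : ∀ y, ((univ.filter fun a => y ∈ U a ∧ y ∉ meet (EE D) U a).card : ℤ) ≤
          co D (cl D (Y y)) := by
        intro y
        have h6 : (univ.filter fun a => y ∈ U a ∧ y ∉ meet (EE D) U a) ⊆
            cl D (cl D (Y y)) \ cl D (Y y) := by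
          intro a ha
          obtain ⟨_, h7, h8⟩ := Finset.mem_filter.1 ha
          rw [mem_meet] at h8
          push Not at h8
          obtain ⟨a', h9, h10⟩ := h8
          rw [mU] at h10
          push Not at h10
          refine Finset.mem_sdiff.2 ⟨mem_cl.2 ⟨a', h10.2, h9⟩, ?_⟩
          rcases (mU a y).1 h7 with rfl | h11
          · exfalso
            rcases h9 with h9 | h9
            · exact h10.1 h9
            · have h12 : y ∈ U a' := hBU a' (mem_cl.2 ⟨a', hX a', Or.inr h9⟩)
              rcases (mU a' y).1 h12 with h13 | h13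
              · exact h10.1 h13
              · exact h13 h10.2
          · exact h11
        have h7 := Finset.card_le_card h6
        rw [Finset.card_sdiff_of_subset (subset_cl D _)] at h7
        have h8 := Finset.card_le_card (subset_cl D (cl D (Y y)))
        unfold co
        omega
      calc ∑ a, (((U a).card : ℤ) - ((meet (EE D) U a).card : ℤ))
          = ∑ a, (((univ.filter fun y => y ∈ U a ∧ y ∉ meet (EE D) U a).card : ℕ) : ℤ) :=
            Finset.sum_congr rfl fun a _ => h2 a
        _ = ∑ y, (((univ.filter fun a => y ∈ U a ∧ y ∉ meet (EE D) U a).card : ℕ) : ℤ) := by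
            have := dc (fun (a : V) (y : V) => y ∈ U a ∧ y ∉ meet (EE D) U a)
            exact_mod_cast this.symm
        _ ≤ ∑ y, co D (cl D (Y y)) := Finset.sum_le_sum fun y _ => h5 y
    linarith

theorem outer_to_inner (D : OGraph V) (B U : V → Finset V) (h : Out D B U)
    (hmin : ∀ B' U', Out D B' U' → oc D B U ≤ oc D B' U') :
    ∃ X Y, Inn D X Y ∧ ∑ a, co D (X a) + ∑ a, co D (Y a) ≤ oc D B U := by
  classical
  obtain ⟨hB, hBU, hU⟩ := h
  -- row optimality
  have hR : ∀ a Y, B a ⊆ Y → Y ⊆ U a → co D (B a) ≤ co D Y := by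
    intro a Y h1 h2
    have h3 : Out D (Function.update B a Y) U := by
      refine ⟨?_, ?_, hU⟩
      · intro x
        by_cases hx : x = a
        · subst hx
          rw [Function.update_self]
          exact (hB x).trans h1
        · rw [Function.update_of_ne hx]
          exact hB x
      · intro x
        by_cases hx : x = a
        · subst hx
          rw [Function.update_self]
          exact h2
        · rw [Function.update_of_ne hx]
          exact hBU x
    have h4 := hmin _ _ h3
    unfold oc at h4
    have h5 : ∑ x, co D (Function.update B a Y x) - ∑ x, co D (B x) = co D Y - co D (B a) := by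
      rw [← Finset.sum_sub_distrib, Finset.sum_eq_single a]
      · rw [Function.update_self]
      · intro x _ hx
        rw [Function.update_of_ne hx, sub_self]
      · intro hx
        exact absurd (Finset.mem_univ a) hx
    linarith
  -- column optimality
  have hC : ∀ b (T : Finset V), (∀ a ∈ T, b ∈ U a ∧ b ∉ B a) →
      T.card ≤ ((univ.filter fun z => b ∈ meet (EE D) U z).filter
        fun z => ∃ a ∈ T, EE D a z).card := by
    intro b T hT
    set U' : V → Finset V := fun a => if a ∈ T then (U a).erase b else U a with hU'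
    have hU'U : ∀ a, U' a ⊆ U a := by
      intro a
      simp only [hU']
      split_ifs
      · exact Finset.erase_subset _ _
      · exact subset_rfl
    have h3 : Out D B U' := by
      refine ⟨hB, ?_, fun a y h1 h2 => hU a y h1 (hU'U a h2)⟩
      intro a
      simp only [hU']
      split_ifs with ha
      · intro y hy
        refine Finset.mem_erase.2 ⟨?_, hBU a hy⟩
        rintro rfl
        exact (hT a ha).2 hy
      · exact hBU a
    have h4 := hmin _ _ h3
    unfold oc at h4
    rw [Finset.sum_sub_distrib, Finset.sum_sub_distrib] at h4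
    have h5 : ∑ a, ((U' a).card : ℤ) = ∑ a, ((U a).card : ℤ) - T.card := by
      have h6 : ∀ a, ((U' a).card : ℤ) = ((U a).card : ℤ) - (if a ∈ T then 1 else 0) := by
        intro a
        simp only [hU']
        split_ifs with ha
        · rw [Finset.card_erase_of_mem (hT a ha).1]
          have := Finset.card_pos.2 ⟨b, (hT a ha).1⟩
          omega
        · simp
      rw [Finset.sum_congr rfl fun a _ => h6 a, Finset.sum_sub_distrib]
      simp
    have h7 : ∑ z, ((meet (EE D) U z).card : ℤ) ≤ ∑ z, ((meet (EE D) U' z).card : ℤ) +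
        ((univ.filter fun z => b ∈ meet (EE D) U z).filter
          fun z => ∃ a ∈ T, EE D a z).card := by
      have h8 : ∀ z, ((meet (EE D) U z).card : ℤ) ≤ ((meet (EE D) U' z).card : ℤ) +
          (if b ∈ meet (EE D) U z ∧ ∃ a ∈ T, EE D a z then 1 else 0) := by
        intro z
        have h9 : (meet (EE D) U z).erase b ⊆ meet (EE D) U' z := by
          intro y hy
          obtain ⟨hyb, hyM⟩ := Finset.mem_erase.1 hy
          refine mem_meet.2 fun a ha => ?_
          have h10 := mem_meet.1 hyM a ha
          simp only [hU']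
          split_ifs
          · exact Finset.mem_erase.2 ⟨hyb, h10⟩
          · exact h10
        split_ifs with hz
        · have h10 := Finset.card_le_card h9
          rw [Finset.card_erase_of_mem hz.1] at h10
          omega
        · have h10 : meet (EE D) U z ⊆ meet (EE D) U' z := by
            intro y hy
            by_cases hyb : y = b
            · subst hyb
              refine mem_meet.2 fun a ha => ?_
              have h11 := mem_meet.1 hy a ha
              have h12 : a ∉ T := fun h13 => hz ⟨hy, a, h13, ha⟩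
              simp only [hU', if_neg h12]
              exact h11
            · exact h9 (Finset.mem_erase.2 ⟨hyb, hy⟩)
          have h11 := Finset.card_le_card h10
          omega
      refine (Finset.sum_le_sum fun z _ => h8 z).trans ?_
      rw [Finset.sum_add_distrib]
      have h9 : ∑ z, (if b ∈ meet (EE D) U z ∧ ∃ a ∈ T, EE D a z then (1 : ℤ) else 0) =
          ((univ.filter fun z => b ∈ meet (EE D) U z).filter
            fun z => ∃ a ∈ T, EE D a z).card := by
        rw [Finset.filter_filter, Finset.card_filter]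
        push_cast
        rfl
      rw [h9]
    have h10 : (T.card : ℤ) ≤ ((univ.filter fun z => b ∈ meet (EE D) U z).filter
        fun z => ∃ a ∈ T, EE D a z).card := by
      linarith
    exact_mod_cast h10
  have hgap := gap (co D) (co_subm D) (EE D) B U hBU hR hC
  set M := meet (EE D) U with hM
  set m := meet (EE D) B with hm
  set Y : V → Finset V := fun x => univ.filter fun z => z = x ∨ x ∉ cl D (U z) with hY
  have mY : ∀ x z, z ∈ Y x ↔ (z = x ∨ x ∉ cl D (U z)) := by
    intro x z
    simp [hY]
  refine ⟨m, Y, ⟨?_, ?_, ?_⟩, ?_⟩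
  · intro a
    refine mem_meet.2 fun x hx => ?_
    exact hB x (mem_cl.2 ⟨x, Finset.mem_singleton_self x, hx⟩)
  · intro a
    exact (mY a a).2 (Or.inl rfl)
  · intro a b hb ha
    by_contra hab
    obtain ⟨x', hx', hbx⟩ := mem_cl.1 hb
    obtain ⟨z, hz, haz⟩ := mem_cl.1 ha
    rcases (mY b z).1 hz with rfl | hz
    · rcases haz with haz | haz
      · exact hab haz
      · rcases hbx with rfl | hbx
        · exact hU a _ haz (hBU a (mem_meet.1 hx' a (Or.inl rfl)))
        · exact hU _ _ hbx (hBU _ (mem_meet.1 hx' _ (Or.inr haz)))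
    · exact hz (mem_cl.2 ⟨x', hBU z (mem_meet.1 hx' z haz), hbx⟩)
  · have h1 : ∑ x, co D (Y x) ≤ ∑ a, (((cl D (U a)).card : ℤ) - ((cl D (M a)).card : ℤ)) := by
      have h2 : ∀ x, co D (Y x) =
          (((univ.filter fun a => a ∈ cl D (Y x) ∧ a ∉ Y x).card : ℕ) : ℤ) := by
        intro x
        have h3 : (univ.filter fun a => a ∈ cl D (Y x) ∧ a ∉ Y x) = cl D (Y x) \ Y x := by
          ext y
          simp
        rw [h3, Finset.card_sdiff_of_subset (subset_cl D _)]
        have h4 := Finset.card_le_card (subset_cl D (Y x))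
        unfold co
        omega
      have h5 : ∀ a, ((univ.filter fun x => a ∈ cl D (Y x) ∧ a ∉ Y x).card : ℤ) ≤
          ((cl D (U a)).card : ℤ) - ((cl D (M a)).card : ℤ) := by
        intro a
        have hMU : cl D (M a) ⊆ cl D (U a) := cl_mono D (meet_sub D U a)
        have h6 : (univ.filter fun x => a ∈ cl D (Y x) ∧ a ∉ Y x) ⊆
            cl D (U a) \ cl D (M a) := by
          intro x hx
          obtain ⟨_, h7, h8⟩ := Finset.mem_filter.1 hx
          rw [mY] at h8
          push Not at h8
          refine Finset.mem_sdiff.2 ⟨h8.2, ?_⟩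
          intro h9
          obtain ⟨y, hy, hxy⟩ := mem_cl.1 h9
          obtain ⟨z, hz, haz⟩ := mem_cl.1 h7
          rcases (mY x z).1 hz with rfl | hz
          · rcases haz with haz | haz
            · exact h8.1 haz
            · rcases hxy with rfl | hxy
              · exact hU a _ haz (meet_sub D U a hy)
              · exact hU _ _ hxy (mem_meet.1 hy _ (Or.inr haz))
          · exact hz (mem_cl.2 ⟨y, mem_meet.1 hy z haz, hxy⟩)
        have h7 := Finset.card_le_card h6
        rw [Finset.card_sdiff_of_subset hMU] at h7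
        have h8 := Finset.card_le_card hMU
        omega
      calc ∑ x, co D (Y x)
          = ∑ x, (((univ.filter fun a => a ∈ cl D (Y x) ∧ a ∉ Y x).card : ℕ) : ℤ) :=
            Finset.sum_congr rfl fun x _ => h2 x
        _ = ∑ a, (((univ.filter fun x => a ∈ cl D (Y x) ∧ a ∉ Y x).card : ℕ) : ℤ) := by
            have := dc (fun (a : V) (x : V) => a ∈ cl D (Y x) ∧ a ∉ Y x)
            exact_mod_cast this
        _ ≤ _ := Finset.sum_le_sum fun a _ => h5 a
    have h2 : ∑ a, (((cl D (U a)).card : ℤ) - ((cl D (M a)).card : ℤ)) =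
        ∑ a, (co D (U a) - co D (B a)) + ∑ a, co D (B a) - ∑ a, (co D (M a) - co D (m a))
          - ∑ a, co D (m a) + ∑ a, (((U a).card : ℤ) - ((M a).card : ℤ)) := by
      simp only [co, Finset.sum_sub_distrib]
      ring
    unfold oc
    rw [← hM]
    linarith

theorem MinCE.false [Nonempty V] {D : OGraph V} (hD : MinCE D) : False := by
  classical
  -- inner minimiser
  have hne : {p : (V → Finset V) × (V → Finset V) | Inn D p.1 p.2}.Nonempty := by
    refine ⟨(fun a => {a}, fun a => {a}), ?_, ?_, ?_⟩
    · intro a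
      exact Finset.mem_singleton_self a
    · intro a
      exact Finset.mem_singleton_self a
    · intro a b hb ha
      obtain ⟨x, hx, h1⟩ := mem_cl.1 hb
      obtain ⟨y, hy, h2⟩ := mem_cl.1 ha
      rw [Finset.mem_singleton] at hx hy
      subst hx hy
      rcases h1 with h1 | h1
      · exact h1.symm
      · rcases h2 with h2 | h2
        · exact h2
        · exact absurd h2 (D.asymm _ _ h1)
  obtain ⟨⟨X, Y⟩, hXY, hmin⟩ := Set.exists_min_image
    {p : (V → Finset V) × (V → Finset V) | Inn D p.1 p.2}
    (fun p => ∑ a, co D (p.1 a) + ∑ a, co D (p.2 a)) (Set.toFinite _) hne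
  simp only [Set.mem_setOf_eq] at hXY hmin
  obtain ⟨B, U, hBU, hcost⟩ := inner_to_outer D X Y hXY
  obtain ⟨⟨B', U'⟩, hBU', hmin'⟩ := Set.exists_min_image
    {p : (V → Finset V) × (V → Finset V) | Out D p.1 p.2}
    (fun p => oc D p.1 p.2) (Set.toFinite _) ⟨(B, U), hBU⟩
  simp only [Set.mem_setOf_eq] at hBU' hmin'
  obtain ⟨X', Y', hXY', hcost'⟩ := outer_to_inner D B' U' hBU'
    (fun B'' U'' h => hmin' (B'', U'') h)
  have h1 := hmin (X', Y') hXY'
  have h2 := hmin' (B, U) hBU
  simp only at h1 h2
  have hle : ∀ S, co D (cl D S) ≤ co D S := by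
    intro S
    by_cases h : cl D S = S
    · rw [h]
    · exact (hD.strict S h).le
  have hcl : ∀ a, cl D (X a) = X a := by
    intro a
    by_contra h
    have h3 : ∑ a, co D (cl D (X a)) < ∑ a, co D (X a) :=
      Finset.sum_lt_sum (fun x _ => hle (X x)) ⟨a, Finset.mem_univ a, hD.strict (X a) h⟩
    have h4 : ∑ a, co D (cl D (Y a)) ≤ ∑ a, co D (Y a) :=
      Finset.sum_le_sum fun x _ => hle (Y x)
    linarith
  -- reachable sets
  set R : V → Finset V := fun a =>
    univ.filter fun v => ∀ S : Finset V, cl D S = S → a ∈ S → v ∈ S with hR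
  have mR : ∀ a v, v ∈ R a ↔ ∀ S : Finset V, cl D S = S → a ∈ S → v ∈ S := by
    intro a v
    simp [hR]
  obtain ⟨a, _, ha⟩ := Finset.exists_min_image univ (fun a => (R a).card)
    Finset.univ_nonempty
  have h5 : 0 < (N1 D a).card := lt_of_le_of_lt (Nat.zero_le _) (hD.ce a)
  obtain ⟨b, hb⟩ := Finset.card_pos.1 h5
  rw [mem_N1] at hb
  have h6 : R b ⊆ R a := by
    intro v hv
    rw [mR] at hv ⊢
    intro S hS haS
    refine hv S hS ?_
    rw [← hS]
    exact mem_cl.2 ⟨a, haS, Or.inr hb⟩
  have h7 : R b = R a := Finset.eq_of_subset_of_card_le h6 (ha b (Finset.mem_univ b))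
  have h8 : a ∈ R b := by
    rw [h7, mR]
    intro S _ h
    exact h
  have h9 : a ∈ X b := (mR b a).1 h8 (X b) (hcl b) (hXY.1 b)
  have h10 := hXY.2.2 b a (subset_cl D _ h9) (mem_cl.2 ⟨a, hXY.2.1 a, Or.inr hb⟩)
  rw [h10] at hb
  exact D.loopless _ hb

omit [DecidableEq V] in
/-- Seymour's second neighbourhood conjecture. -/
theorem snc [Nonempty V] (D : OGraph V) : ∃ v, (N1 D v).card ≤ (N2 D v).card := by
  classical
  induction h : arcs D using Nat.strong_induction_on generalizing D with
  | _ n ih =>
    by_contra hcon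
    push Not at hcon
    refine MinCE.false (D := D) ⟨hcon, fun D' hD' => ?_⟩
    exact ih (arcs D') (by omega) D' rfl

end Vale.Agent.P038.H808
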